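import Vale.Agent.P269.PA.Defs
import Vale.Agent.P269.Gen.Act

/-!
# The projective bundle and its fixed components as families
-/

set_option linter.unusedSectionVars false

namespace Vale.Agent.P269

open P291Z Set Function MvPolynomial

variable {R J K : Type} [Fintype R] [Fintype J] [Fintype K] [DecidableEq R] {r : ℕ}

/-- The line bundles of the fixed component `n` in terms of those of the base. -/
def Mv (a : Fin (r + 1) → R → ℤ) (n : Fin (r + 1)) : Option R → R → ℤ :=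
  fun o => o.elim (-a n) fun s => Pi.single s 1

/-- The fields of the fixed component `n` on the slice `y n = 1`. -/
noncomputable def σv (J : Type) (n : Fin (r + 1)) :
    J ⊕ Fin (r + 1) → MvPolynomial J (MvPolynomial Empty ℂ) :=
  Sum.elim X fun l => if l = n then 1 else 0

theorem dgV_eq (a : Fin (r + 1) → R → ℤ) (n : Fin (r + 1)) (β : R → ℤ) :
    dgV a n β = fun o => ∑ s, Mv a n o s * β s := by
  funext o
  cases o <;> simp [dgV, Mv, Pi.single_apply]

namespace PA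

variable {F : Fam Empty Empty R J K} {a : Fin (r + 1) → R → ℤ} {θ : Option R → ℤ}

theorem cp_empty (F : Fam Empty Empty R J K) : F.Cp := inferInstanceAs (CompactSpace (Quot _))

theorem exists_big {S Λ : Type} [Fintype S] [Fintype Λ] {F : Fam S Λ R J K} (h : F.Good) :
    ∃ k, F.Big k :=
  let ⟨θ₀, N, h⟩ := h.ample
  ⟨_, θ₀, N, h, le_rfl⟩

theorem nice_of_abs (h : F.Good) (hr : ∃ K₀, F.Reg K₀) (ha : F.Abs) (hB : F.B = univ) :
    F.Nice 0 where
  toGood := h
  reg := hr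
  sm := ⟨0, fun l => ⟨fun _ => l, .of_map_nhds (.of_forall fun _ => continuousAt_const)
    (.of_forall fun _ => continuous_subtype_val.continuousAt) analyticAt_const
    (injective_of_subsingleton _) fun _ hs => Filter.mem_of_superset Filter.univ_mem fun y _ =>
      Subsingleton.elim l y ▸ (mem_of_mem_nhds hs :), rfl⟩⟩
  pol := ⟨∅, nofun, ha.2.trans (eq_univ_of_forall fun _ _ e => nomatch e).symm⟩
  sh := ⟨0, nofun, 0, 1, nofun, linearIndependent_empty_type, nofun, fun _ a b => (b (ha.1 a)).elim,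
    fun _ l _ => (hB.ge (mem_univ l) |> fun _ => ⟨analyticAt_const, one_ne_zero⟩),
    fun _ a b => (b (ha.1 a)).elim, fun _ a b => (b (ha.1 a)).elim, fun _ _ _ _ _ =>
      iff_of_true (ha.2.ge (mem_univ _)) fun _ a b => (b (ha.1 a)).elim, fun _ _ => rfl⟩

theorem tg_abs (h : F.Tg) : F.Abs := ⟨fun _ a => (a (h.mov.ge (mem_univ _))).elim, h.E⟩

theorem tg_nice (h : F.Tg) : F.Nice 0 := nice_of_abs h.toGood ⟨_, h.reg⟩ (tg_abs h) h.B

theorem tg_zer (h : F.Tg) : F.zer = ∅ := disjoint_univ.1 (h.mov ▸ h.zer_base)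

omit [DecidableEq R] in
theorem mem_cone_proj (hB : F.B = univ) (hE : F.E = univ) (hz : F.zer = ∅) {z} :
    z ∈ (F.proj a θ).cone ↔ (z.1, z.2 ∘ .inl) ∈ F.cone ∧ z.2 ∘ .inr ≠ 0 := by
  have e : ∀ k, (F.proj a θ).eqn z k = F.eqn (z.1, z.2 ∘ .inl) k := fun k =>
    (congrArg _ (map_rename _ _ _)).trans (eval_rename _ _ _)
  simp only [Fam.mem_cone, e, Fam.bs, hB, hE, hz]
  exact ⟨fun h => ⟨⟨⟨trivial, trivial, nofun⟩, h.2.1.1, h.2.2⟩, h.2.1.2⟩,
    fun h => ⟨⟨trivial, trivial, nofun⟩, ⟨h.1.2.1, h.2⟩, h.1.2.2⟩⟩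

omit [DecidableEq R] in
theorem mem_cone_vx {n : Fin (r + 1)} {z} : z ∈ ((F.proj a θ).vx n).cone ↔
    z ∈ (F.proj a θ).cone ∧ ∀ l ≠ n, z.2 (.inr l) = 0 :=
  ⟨fun h => ⟨⟨h.1, ⟨h.2.1.1, trivial, nofun⟩, h.2.2⟩, fun l hl => h.2.1.2.2 _ ⟨l, hl, rfl⟩⟩,
    fun h => ⟨trivial, ⟨h.1.2.1.1, trivial, fun _ ⟨l, hl, e⟩ => e ▸ h.2 l hl⟩, h.1.2.2⟩⟩

theorem proj_ind (h : F.Tg) {z} (hz : z ∈ (F.proj a θ).cone) (c : K → ℂ) :
    ∃ η : J ⊕ Fin (r + 1) → ℂ, (∀ l, η (.inr l) = 0) ∧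
      ∀ k, ∑ j, (F.proj a θ).jac z k j * η j = c k := by
  obtain ⟨η, -, e⟩ := h.reg.ind _ ((mem_cone_proj h.B h.E (tg_zer h)).1 hz).1 c
  refine ⟨Sum.elim η 0, fun _ => rfl, fun k => ?_⟩
  have : ∀ j, (F.proj a θ).jac z k (.inl j) = F.jac (z.1, z.2 ∘ .inl) k j := fun j =>
    (congrArg _ ((congrArg _ (map_rename _ _ _)).trans
      (pderiv_rename Sum.inl_injective _ _))).trans (eval_rename _ _ _)
  simpa [this] using e k trivial

theorem proj_tg (h : F.Tg) (hE : (F.proj a θ).Good) : (F.proj a θ).Tg :=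
  ⟨hE, Fam.reg_univ fun _ hz c => (proj_ind h hz c).imp fun _ e =>
    ⟨fun _ a => (a trivial).elim, e.2⟩, rfl, rfl, rfl⟩

omit [DecidableEq R] in
theorem vx_abs (n : Fin (r + 1)) : ((F.proj a θ).vx n).Abs := ⟨(compl_compl _).subset, rfl⟩

theorem vx_amp {n : Fin (r + 1)} {θ₀ N} (h : (F.proj a θ).Ample θ₀ N) :
    ((F.proj a θ).vx n).Ample θ₀ N :=
  ⟨h.1, h.2.1, fun c hc z hz => h.2.2 c hc z (mem_cone_vx.1 hz).1⟩

theorem vx_nice (h : F.Tg) (hE : (F.proj a θ).Good) (n : Fin (r + 1)) :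
    ((F.proj a θ).vx n).Nice 0 := by
  refine nice_of_abs ⟨⟨hE.hom, hE.homS, hE.openU, hE.invU, hE.closedE, hE.invE,
    fun _ _ _ _ _ => trivial, disjoint_compl_right, hE.lcB, hE.invB⟩, hE.deg, hE.freeB, hE.properB,
    fun t ht z hz => hE.free t ht z (mem_cone_vx.1 hz).1,
    fun t z z' ht hz hz' => hE.proper t z z' ht (mem_cone_vx.1 hz).1 (mem_cone_vx.1 hz').1,
    fun B' hB cB => ?_, hE.ample.imp fun _ e => e.imp fun _ => vx_amp, ⟨.inr n, by simp⟩⟩
    ⟨_, Fam.reg_univ fun z hz c => (proj_ind h (mem_cone_vx.1 hz).1 c).imp fun _ e =>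
      ⟨fun _ a => ?_, e.2⟩⟩ (vx_abs n) rfl
  · obtain ⟨C, sC, cC, e⟩ := hE.cpt B' hB cB
    refine ⟨C ∩ ⋂ l ≠ n, {z | z.2 (.inr l) = 0}, fun z hz => mem_cone_vx.2 ⟨sC hz.1,
      fun l hl => mem_iInter₂.1 hz.2 l hl⟩, cC.inter_right (isClosed_biInter fun l _ =>
        isClosed_eq (by fun_prop) continuous_const), fun z hz hz' => ?_⟩
    obtain ⟨t, ht, e⟩ := e z (mem_cone_vx.1 hz).1 hz'
    exact ⟨t, ht, e, mem_iInter₂.2 fun l hl =>
      mul_eq_zero_of_right _ ((mem_cone_vx.1 hz).2 l hl)⟩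
  · obtain ⟨l, -, rfl⟩ := not_not.1 a
    exact e.1 l

theorem vx_big {k : ℕ} (h : (F.proj a θ).Big k) (n : Fin (r + 1)) :
    ((F.proj a θ).vx n).Big k := h.imp fun _ e => e.imp fun _ e => ⟨vx_amp e.1, e.2⟩

theorem pres_vx (h : F.Tg) (n : Fin (r + 1)) :
    F.Pres ((F.proj a θ).vx n) .inl (fun _ : Unit => .inr n) (Mv a n) (σv J n) where
  inj := Sum.inl_injective
  wl := funext nofun
  B := h.B.symm
  σ_φ _ := rfl
  σ_s _ := if_pos rfl
  hom := by
    classical
    rintro (j | l) α hα s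
    · obtain rfl : α = Finsupp.single j 1 := by simpa [σv, support_X] using hα
      simp [Fam.proj, Mv, Pi.single_apply, Finsupp.single_apply]
    · by_cases e : l = n
      · obtain rfl : α = 0 := by simpa [σv, e, coeff_one, eq_comm] using hα
        simp [Fam.proj, Mv, Pi.single_apply, e]
      · simp [σv, e] at hα
  homS := fun _ _ _ _ _ => nofun
  lat_inj d e := funext fun s => (congrFun (dgV_eq a n d) (some s)).trans (e _)
  lat_ker d' e := ⟨d' ∘ some, by
    rw [← dgV_eq]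
    funext o
    cases o
    · simpa [Fam.proj, dgV, eq_neg_iff_add_eq_zero] using e ()
    · rfl⟩
  lat_onto m := ⟨fun o => o.elim (m ()) 0, fun _ => by simp [Fam.proj]⟩
  cone z := by
    rw [mem_cone_vx, mem_cone_proj h.B h.E (tg_zer h)]
    constructor
    · rintro ⟨⟨c, c'⟩, e⟩
      have h0 : z.2 (.inr n) ≠ 0 := fun e' => c' (funext fun l => by
        by_cases hl : l = n
        · exact hl ▸ e'
        · exact e l hl)
      refine ⟨fun o => o.elim (z.2 (.inr n)) 1, isUnit_pi_iff.2 fun o => ?_, _, c,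
        Prod.ext (Subsingleton.elim _ _) (funext ?_)⟩
      · cases o
        · exact h0
        · exact one_ne_zero
      · rintro (j | l)
        · simp [Wt.actT, Fam.proj, evσ, evz, σv]
        · by_cases hl : l = n
          · simp [Wt.actT, Fam.proj, evσ, evz, σv, hl]
          · simp [Wt.actT, Fam.proj, evσ, evz, σv, hl, e l hl]
    · rintro ⟨t, ht, y, c, rfl⟩
      have ht' := isUnit_pi_iff.1 ht
      refine ⟨⟨?_, fun e => ?_⟩, fun l hl => by simp [Wt.actT, evσ, evz, σv, hl]⟩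
      · refine (congrArg (· ∈ F.cone) (Prod.ext (Subsingleton.elim _ _) (funext fun j => ?_))).mp
          (h.cone_act (t := (1, t ∘ some))
            (Prod.isUnit_iff.2 ⟨isUnit_one, isUnit_pi_iff.2 fun _ => ht' _⟩) c)
        simp [Wt.actT, Fam.proj, evσ, evz, σv]
      · have := congrFun e n
        simp only [Wt.actT, evσ, evz, σv, comp_apply, Sum.elim_inr, if_true, map_one, mul_one,
          Finset.univ_eq_empty, Finset.prod_empty, one_mul] at this
        exact prod_zpow_ne ht' _ this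
  mov j := by simp [h.mov]
  zer j := by simp [tg_zer h]
  E _ _ _ _ := h.E.ge (mem_univ _)
  drop _ _ a := .inl (not_not.1 a)
  E' _ _ _ _ _ := iff_of_true trivial ⟨1, isUnit_one, fun _ _ a b => (b (not_not.1 a)).elim⟩

end PA

end Vale.Agent.P269
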