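import Vale.Agent.P269.Prj.LH
import Vale.Agent.P269.Prj.Alg
import Vale.Agent.P269.Prj.Tgt
import Vale.Agent.P269.Asm.Mon
import Vale.Agent.P269.PA.Vx

/-!
# The cohomology of a projective bundle: the algebraic part
-/

set_option linter.unusedSectionVars false

namespace Vale.Agent.P269

open P291Z Set Function Fock Tq

namespace PA

variable {S Λ R J K : Type} [Fintype S] [Fintype Λ] [Fintype R] [Fintype J] [Fintype K]
  [DecidableEq R]

section coh

variable {F : Fam S Λ R J K} {C : Deg.Coh} {i : C.H →ₗ[ℂ] H (F.X F.cone)} (h : F.IsCoh C i)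
include h

theorem intX_sum {α : Type} (s : Finset α) (x : α → H (F.X F.cone)) :
    F.intX _ (∑ a ∈ s, x a) = ∑ a ∈ s, F.intX _ (x a) := by
  choose v hv using fun a => h.bij.2 (x a)
  have k : ∀ v, F.intX _ (i v) = C.fr.η v C.fr.one := fun v => by rw [h.η, h.one, mul_one]
  simp only [← hv]
  rw [← map_sum, k, map_sum, LinearMap.sum_apply]
  simp only [k]

theorem exists_act : ∃ ac : B.Act C.fr (Ch.Hev (F.X F.cone)), ∀ x v, i (ac.act x v) = x.1 * i v := by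
  obtain ⟨f, hf⟩ : ∃ f : Ch.Hev (F.X F.cone) →ₐ[ℂ] Module.End ℂ C.H, ∀ x v, i (f x v) = x.1 * i v :=
    ⟨((LinearEquiv.ofBijective i h.bij).symm.conjAlgEquiv ℂ).toAlgHom.comp
      ((Algebra.lmul ℂ _).comp (Ch.Hev _).val),
      fun x v => (LinearEquiv.ofBijective i h.bij).apply_symm_apply _⟩
  exact ⟨⟨f, fun x v => h.bij.1 (by rw [← h.ev, hf, hf, parH_mul, parH_Hev x.2, h.ev]),
    fun x v w => by rw [h.η, h.η, hf, hf, Ch.Hev.commute x.2 (i v), mul_assoc]⟩, hf⟩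

end coh

theorem ser0_nat {F : Fam S Λ R J K} {k : ℕ} {e : F.Ex} {A : Set _} {V V' : Type} [AddCommGroup V]
    [Module ℂ V] [AddCommGroup V'] [Module ℂ V'] {p : Par ℂ V} {p' : Par ℂ V'} (hS : St.Spec)
    (hF : F.Nice 0) (hc : F.Cp) (hk : F.Big k) (he : F.ExOk k e) (hA : F.cone ⊆ A)
    {i : V' →ₗ[ℂ] H (F.X A)} (hi : IsEv p' (parH _) i) {f : V →ₗ[ℂ] V'} (hf : IsEv p p' f) (d) :
    F.ser0 k e p (i ∘ₗ f) d =
      fun j => F.ser0 k e p' i d j ∘ₗ (Fock.map _ (Deg.isEv_vv hf)).toLinearMap := funext fun j => by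
  rw [Fam.ser0, Fam.ser0, Fam.serA_nat hS hF hc hk he hA hi hf, LinearMap.comp_assoc,
    LinearMap.comp_assoc, ← AlgHom.comp_toLinearMap, ← AlgHom.comp_toLinearMap]
  exact congrArg (_ ∘ₗ AlgHom.toLinearMap ·) (hom_ext fun v => by simp [Deg.lp])

theorem c1_eq {F : Fam Empty Empty R J K} (h : F.mov = univ) :
    F.c1 F.cone = ∑ j, F.lc _ 0 (F.w j) - ∑ q, F.lc _ 0 (F.χ q) := by
  simp only [Fam.c1, h, mem_univ, finsum_true, finsum_eq_sum_of_fintype,
    fun j => Subsingleton.elim (F.wt j) 0, fun q => Subsingleton.elim (F.wk q) 0]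

end PA

open PA in
theorem St.prjCoh_of (hL : St.PrjLH) (hS : St.Spec) (hSe : St.SelC) : St.PrjCoh := by
  intro R J K _ _ _ _ F r a θ hF hr hE C i vd hi C' i' vd' hi' hμ
  obtain ⟨π, LF, LE, lF, lE, nil, -, pb, pL, lh, rel, int⟩ := hL F a θ hF hr hE
  obtain ⟨ac, hac⟩ := exists_act hi.toIsCoh
  simp only [pb] at hμ ⊢
  simp only [← H.mapA_apply] at hμ pL lh rel int ⊢
  have ev := isEv_map π
  generalize H.mapA π = g at hμ pL lh rel int ev ⊢
  have c1 : (F.proj a θ).c1 _ = g (F.c1 _) + g (∑ l, LF (a l)).1 +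
      ((r : ℂ) + 1) • (LE (Pi.single none 1)).1 := by
    have e : ∀ l, (F.proj a θ).w (.inr l) = (fun o => o.elim 0 (a l)) + Pi.single none 1 :=
      fun l => funext fun o => by cases o <;> simp [Fam.proj]
    rw [c1_eq rfl, c1_eq hF.mov, Fintype.sum_sum_type]
    simp only [← lF, ← lE, e, map_add, map_sub, map_sum, pL, AddSubmonoidClass.coe_finsetSum,
      Subalgebra.coe_add, Finset.sum_add_distrib, Finset.sum_const, Finset.card_univ,
      Fintype.card_fin, ← Nat.cast_smul_eq_nsmul ℂ, Nat.cast_succ]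
    rw [add_assoc, add_sub_right_comm]
    rfl
  have lc := hi'.lc (Pi.single none 1)
  rw [← lE] at lc ⊢
  generalize LE (Pi.single none 1) = ξ at lh rel int c1 lc ⊢
  have cm : ∀ (m : ℕ) y, ξ.1 ^ m * y = y * ξ.1 ^ m := fun m => Ch.Hev.commute (ξ ^ m).2
  obtain ⟨iP, hP⟩ : ∃ iP : (Fin (r + 1) → C.H) →ₗ[ℂ] _,
      ∀ v, iP v = ∑ l : Fin (r + 1), ξ.1 ^ (l : ℕ) * g (i (v l)) :=
    ⟨∑ l : Fin (r + 1), LinearMap.mulLeft ℂ (ξ.1 ^ (l : ℕ)) ∘ₗ g.toLinearMap ∘ₗ i ∘ₗ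
      LinearMap.proj l, fun v => by simp⟩
  have eP : IsEv (C.p.pi _) (parH _) iP := fun v => by
    rw [hP, hP, map_sum]
    exact Finset.sum_congr rfl fun l _ => by
      rw [parH_mul, parH_Hev (pow_mem ξ.2 _), Par.pi_σ, ← hi.ev]
      exact congrArg _ (ev _)
  obtain ⟨Ψ, hΨ⟩ : ∃ Ψ : (Fin (r + 1) → C.H) ≃ₗ[ℂ] C'.H, ∀ v, i' (Ψ v) = iP v :=
    ⟨(LinearEquiv.ofBijective iP (funext hP ▸ lh.comp (Bijective.piMap fun _ => hi.bij))).trans
      (LinearEquiv.ofBijective i' hi'.bij).symm,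
      fun v => (LinearEquiv.ofBijective i' hi'.bij).apply_symm_apply _⟩
  have eΨ : IsEv (C.p.pi _) C'.p Ψ.toLinearMap := fun v => hi'.bij.1 (by
    rw [← hi'.ev, LinearEquiv.coe_coe, hΨ, hΨ, eP])
  have ext : ∀ {v w}, i' (Ψ v) = iP w → v = w := fun e =>
    Ψ.injective (hi'.bij.1 (e.trans (hΨ _).symm))
  have mu : ∀ (m : ℕ) x u, i' u = ξ.1 ^ m * g (i x) →
      i' (vd'.μ u) = ξ.1 ^ m * g (i (vd.μ x + ((m : ℂ) - r / 2) • x)) := fun m x => by
    induction m with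
    | zero =>
      intro u e
      obtain ⟨u', e'⟩ := hi'.bij.2 (g (i (vd.μ x)))
      rw [pow_zero, one_mul] at e ⊢
      simp [hμ x u u' e e', e, e', sub_eq_add_neg]
    | succ m ih =>
      intro u e
      obtain ⟨u', e'⟩ := hi'.bij.2 (ξ.1 ^ m * g (i x))
      rw [lc u' u (by rw [e, e', pow_succ', mul_assoc]), ih u' e', e, ← mul_assoc, ← pow_succ',
        ← mul_add, ← map_add, ← map_add, add_assoc, Nat.cast_succ, add_sub_right_comm, add_smul,
        one_smul]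
  refine ⟨g.toLinearMap ∘ₗ i, iP, ac, fun l => LF (a l), C'.fr.cm Ψ eΨ, vd'.cm Ψ eΨ, fun _ => rfl,
    hP, ev.comp hi.ev, eP, hac, fun l => lF _, fun l => nil _,
    fun l => LinearMap.ext fun v => hi.bij.1 ?_, fun l => LinearMap.ext fun v => hi.bij.1 ?_,
    ⟨fun v w => ?_, ext ?_, fun v => congrFun (ext ?_), fun v => congrFun (ext ?_)⟩,
    fun χ χ' => by rw [← lF, ← lF, ← lF, map_sub]; rfl, fun k d hk h => ?_⟩
  · rw [LinearMap.add_apply, map_add, Module.End.mul_apply, Module.End.mul_apply,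
      hi.lc (a l) v _ (by rw [hac, lF]), hac _ (vd.μ v), lF]
  · rw [Module.End.mul_apply, Module.End.mul_apply, hi.ρ, hac, hac, hi.ρ, ← mul_assoc, ← mul_assoc,
      Ch.Hev.commute (LF _).2]
  · rw [Frame.cm_η, hi'.η, hΨ, hΨ, hP, hP, Finset.sum_mul_sum, intX_sum hi'.toIsCoh]
    refine Finset.sum_congr rfl fun k _ => ?_
    rw [intX_sum hi'.toIsCoh]
    refine Finset.sum_congr rfl fun l _ => ?_
    rw [hi.η, hac, mul_assoc _ (i _), ← int, map_mul, pow_add, mul_assoc, mul_assoc,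
      ← mul_assoc (g _), ← cm, mul_assoc]
  · rw [Frame.cm_one, hi'.one, hP, Finset.sum_eq_single 0 (fun l _ e => by simp [e]) (by simp)]
    simp [hi.one]
  · choose u hu using fun l : Fin (r + 1) => hi'.bij.2 (ξ.1 ^ (l : ℕ) * g (i (v l)))
    rw [VD.cm_μ, show Ψ v = ∑ l, u l from hi'.bij.1 (by simp only [hΨ, hP, map_sum, hu]), hP,
      map_sum, map_sum]
    exact Finset.sum_congr rfl fun l _ => mu l _ _ (hu l)
  · have e : ∀ l : Fin (r + 1), ξ.1 * (ξ.1 ^ (l : ℕ) * g (i (v l))) = ∑ k : Fin (r + 1),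
        ξ.1 ^ (k : ℕ) * g (i (ac.act (B.xc (fun l => LF (a l)) (l + 1) k) (v l))) := fun l => by
      rw [← mul_assoc, ← pow_succ', rel, Finset.sum_mul]
      simp only [hac, map_mul, mul_assoc]
    have f : ∀ (m : ℕ) x y, g x * (ξ.1 ^ m * g y) = ξ.1 ^ m * g (x * y) := fun m x y => by
      rw [← mul_assoc, ← cm, map_mul, mul_assoc]
    rw [VD.cm_ρ, hi'.ρ, hΨ, c1, hP, hP, add_mul, add_mul, smul_mul_assoc]
    simp only [Finset.mul_sum, e, f, map_add, map_smul, mul_add, Finset.sum_add_distrib, hi.ρ,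
      hac _ (v _), mul_smul_comm, ← Finset.smul_sum]
    rw [Finset.sum_comm]
    simp only [map_sum, Finset.mul_sum, hac]
  · have hT := proj_tg hF hE
    rwa [← LinearMap.ext (f := i' ∘ₗ Ψ.toLinearMap) hΨ, ser0_nat hS (tg_nice hT) (Fam.cp_empty _) hk
      (Fam.exOk0 hSe hE hk) Subset.rfl hi'.ev eΨ, VD.virC_cm] at h

end Vale.Agent.P269
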