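import Vale.Agent.P269.PA.Defs

/-!
# The statement on the cohomology of a projective bundle
-/

namespace Vale.Agent.P269

open P291Z Set Function Fock

namespace St

/-- The cohomology of a projective bundle. -/
def PrjCoh : Prop :=
  ∀ {R J K : Type} [Fintype R] [Fintype J] [Fintype K] [DecidableEq R] (F : Fam Empty Empty R J K)
    {r : ℕ} (a : Fin (r + 1) → R → ℤ) (θ), F.Tg → 0 < r → (F.proj a θ).Good →
    ∀ C i vd, F.Std C i vd → ∀ C' i' vd', (F.proj a θ).Std C' i' vd' →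
    (∀ v v' u', i' v' = (F.proj a θ).pb F.toWt (fun z => (z.1, z.2 ∘ .inl)) _ (i v) →
      i' u' = (F.proj a θ).pb F.toWt (fun z => (z.1, z.2 ∘ .inl)) _ (i (vd.μ v)) →
      vd'.μ v' = u' - (r / 2 : ℂ) • v') →
    ∃ (i₀ : C.H →ₗ[ℂ] H ((F.proj a θ).X (F.proj a θ).cone))
      (iP : (Fin (r + 1) → C.H) →ₗ[ℂ] H ((F.proj a θ).X (F.proj a θ).cone))
      (ac : B.Act C.fr (Ch.Hev (F.X F.cone))) (c : Fin (r + 1) → Ch.Hev (F.X F.cone))
      (fr' : Frame (C.p.pi (Fin (r + 1))) C'.ι) (d' : VD fr'),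
      (∀ v, i₀ v = (F.proj a θ).pb F.toWt (fun z => (z.1, z.2 ∘ .inl)) _ (i v)) ∧
      (∀ v, iP v = ∑ l : Fin (r + 1),
        (F.proj a θ).lc _ 0 (Pi.single none 1) ^ (l : ℕ) * i₀ (v l)) ∧
      IsEv C.p (parH _) i₀ ∧ IsEv (C.p.pi _) (parH _) iP ∧
      (∀ x v, i (ac.act x v) = x.1 * i v) ∧ (∀ l, (c l).1 = F.lc _ 0 (a l)) ∧
      (∀ l, IsNilpotent (c l)) ∧
      (∀ l, vd.μ * ac.act (c l) = ac.act (c l) * vd.μ + ac.act (c l)) ∧
      (∀ l, vd.ρ * ac.act (c l) = ac.act (c l) * vd.ρ) ∧ B.IsProj vd ac c d' ∧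
      (∀ χ χ', F.lc F.cone 0 (χ - χ') = F.lc _ 0 χ - F.lc _ 0 χ') ∧
      ∀ k d, (F.proj a θ).Big k →
        d'.VirC ((F.proj a θ).ser0 k (F.proj a θ).ex0 (C.p.pi _) iP d) →
        vd'.VirC ((F.proj a θ).ser0 k (F.proj a θ).ex0 C'.p i' d)

end St

end Vale.Agent.P269
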