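import Vale.Agent.P269.PA.Cop
import Vale.Agent.P269.PA.Stm

/-!
# The Virasoro constraints for projective bundles
-/

namespace Vale.Agent.P269

open P291Z Set Function Fock

theorem PA.exists_li (n : ℕ) : ∃ w : Fin n → ℂ, LinearIndependent ℚ w :=
  exists_linearIndependent_of_le_rank
    (Complex.rank_rat_complex ▸ (Cardinal.natCast_lt_aleph0.trans Cardinal.aleph0_lt_continuum).le)

open PA in
/-- **Projective bundles.** -/
theorem St.proj_of (hB : B.StepB) (hQ : St.Qrr) (hL : St.Loc) (hC : St.PrjCoh) (hSp : St.Spec)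
    (hSe : St.SelC) (hSu : St.Supp) (hPa : St.Par) (hN : St.Norm) (hR : St.Res) (hP : St.Pres)
    (hH : St.PresH) : St.Proj := by
  intro R J K _ _ _ _ F r a θ hF hr hE C i vd hs hv C' i' vd' hs' hμ k hk d
  obtain ⟨i₀, iP, ac, c, fr', d', h0, hP', e0, eP, hac, hl, nil, μc, ρc, hp, ls, tr⟩ :=
    hC F a θ hF hr hE C i vd hs C' i' vd' hs' hμ
  obtain ⟨w, hw⟩ := exists_li (r + 1)
  obtain ⟨k₀, hk₀⟩ := hF.toGood.exists_big
  have cop : Cop vd ac w c 0 (Zv k i₀ w) :=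
    ⟨Zv_ev hSp hSe hF hE hk e0 hPa, fun n β => Zv_eq hSe hF hE hk h0 hR hP hk₀ n β ▸ hv k₀ hk₀ β,
      Zv_qrr hSe hF hE hk h0 hQ hR hH e0 hs.toIsCoh hac hl hw.injective ls,
      Zv_low hSp hSe hF hE hk e0 hSu, Zv_neg hSp hSe hF hE hk e0 hSu, Zv_zero hSp hSe hF hE hk e0 hN⟩
  obtain ⟨ZT, ⟨I⟩, hZ⟩ := cop.bIn hr nil μc ρc hw fun ZF h =>
    hL F a θ k C i i₀ iP ac c w ZF hF hr hE hk hs.toIsCoh h0 hP' e0 eP hac hl nil hw h
  refine tr k d hk ?_
  have := hB vd ac c _ ZT I d' hp (d ∘ some) (d none)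
  rwa [show (fun j => Polynomial.lcoeff ℂ 0 ∘ₗ ZT (d ∘ some) (d none) j) = _ from
    funext fun j => LinearMap.ext fun x => (hZ _ _ j x).trans (by
      rw [show (fun o : Option R => o.elim (d none) (d ∘ some)) = d from
        funext fun o => by cases o <;> rfl])] at this

end Vale.Agent.P269
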