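import Vale.Agent.P269.Gen.Num
import Vale.Agent.P269.B.Iface

/-!
# Projective bundles: the statements of localisation and of quantum Riemann-Roch
-/

namespace Vale.Agent.P269

open P291Z Set Function Fock Finset

variable {S Λ R J K : Type}

/-- The series `∏ (∑ (ε / b l)^m c_m(Ind (y l)))⁻¹` over `l ∈ T`. -/
noncomputable def thS {I : Type} (T : Finset I) (y : I → J) (b : I → ℂ) :
    PowerSeries (MvPolynomial (J × ℕ) ℂ) :=
  ∏ l ∈ T, (PowerSeries.mk fun m =>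
    if m = 0 then 1 else (b l)⁻¹ ^ m • MvPolynomial.X (y l, m)).invOfUnit 1

/-- The twisting class of order `ε^m` at the fixed component `n`. -/
noncomputable def thV {r : ℕ} (y : Fin (r + 1) → J) (w : Fin (r + 1) → ℂ) (n : Fin (r + 1))
    (m : ℕ) : MvPolynomial (J × ℕ) ℂ :=
  PowerSeries.coeff m (thS (univ.erase n) y fun l => w l - w n)

/-- The fixed component `n` of a projective bundle: the fibre coordinates `y l`, `l ≠ n`, are base
fields that vanish. -/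
@[reducible] def Fam.vx {r : ℕ} (E : Fam S Λ R (J ⊕ Fin (r + 1)) K) (n : Fin (r + 1)) :
    Fam S Λ R (J ⊕ Fin (r + 1)) K :=
  { E with mov := (Sum.inr '' {n}ᶜ)ᶜ, zer := Sum.inr '' {n}ᶜ }

/-- The degree in the projective bundle of a curve of degree `β` in the fixed component `n`. -/
def dgV [Fintype R] {r : ℕ} (a : Fin (r + 1) → R → ℤ) (n : Fin (r + 1)) (β : R → ℤ) :
    Option R → ℤ := fun o => o.elim (-∑ s, a n s * β s) β

section prd

variable {H : Type} [AddCommGroup H] [Module ℂ H] (p : Par ℂ H) {σ : Type} [DecidableEq σ]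

theorem isEv_single (n : σ) : IsEv p (p.pi σ) (LinearMap.single ℂ (fun _ => H) n) :=
  fun v => p.pi_σ_single n v

/-- Insertions on the copy `n`. -/
noncomputable def inc (n : σ) : Fock.S (p.fs ℕ) →ₐ[ℂ] Fock.S ((p.pi σ).fs ℕ) :=
  Fock.map _ (Deg.isEv_vv (isEv_single p n))

/-- The product of insertions on all copies. -/
noncomputable def prd {r : ℕ} (x : Fin r → Fock.S (p.fs ℕ)) : Fock.S ((p.pi (Fin r)).fs ℕ) :=
  (List.ofFn fun n => inc p n (x n)).prod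

end prd

section out

variable {H : Type} [AddCommGroup H] [Module ℂ H] {p : Par ℂ H} {ι : Type} [Fintype ι]
  {fr : Frame p ι} {A : Type} [CommRing A] [Algebra ℂ A] {r : ℕ} (ac : B.Act fr A)
  (w : Fin (r + 1) → ℂ) (c : Fin (r + 1) → A)

/-- The quantum Riemann-Roch equation on the fixed component `n`: `Z m j` has the class of order
`ε^m` inserted. -/
def QrrEq (n : Fin (r + 1)) (κ : ℕ → ℂ) (Z : ℕ → ℤ → Fock.S (p.fs ℕ) →ₗ[ℂ] ℂ) : Prop :=
  ∀ (m : ℕ) j x, m * Z m j x = ∑ q ∈ antidiagonal m,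
    (Z q.1 j (κ q.2 • x - fr.q0 (B.aK ac w c (fun _ => True) n q.2) x) -
      Z q.1 (j - 1) (fr.q1 (B.aT ac w c (B.cI w c n) n q.2) x) -
      Z q.1 (j + 1) (fr.qm (B.aT ac w c (Ring.inverse (B.cI w c n)) n q.2) x))

open B in
/-- The output of localisation: the fields of `B.BIn` that concern the torus action. `Z0 d` are the
invariants of the projective bundle, `ZF` the twisted invariants of the fixed locus. -/
structure LocOut [Fintype R] (a : Fin (r + 1) → R → ℤ)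
    (Z0 : (Option R → ℤ) → ℤ → Fock.S ((p.pi (Fin (r + 1))).fs ℕ) →ₗ[ℂ] ℂ)
    (ZF : (Fin (r + 1) → R → ℤ) → (Fin (r + 1) → ℤ) →
      Fock.S (((p.bc F).pi (Fin (r + 1))).fs ℕ) →ₗ[F] F) where
  ZT : (R → ℤ) → ℤ → ℤ → Fock.S ((p.pi (Fin (r + 1))).fs ℕ) →ₗ[ℂ] Polynomial ℂ
  cst : ∀ β e j x, (ZT β e j x).coeff 0 = Z0 (fun o => o.elim e β) j x
  tup : (R → ℤ) → Finset (Fin (r + 1) → R → ℤ)
  tup_o : tup 0 = {0}
  ZZ : ℕ → (Fin (r + 1) → R → ℤ) → ℤ → ℤ → Fock.S ((p.bc F).fs (Sym (Fin (r + 1)))) →ₗ[F] F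
  loc1 : ∀ β e j x, Polynomial.aeval tt (ZT β e j x) = ∑ βv ∈ tup β, ∑ᶠ m,
    ZZ m βv (e - ∑ n, dgV a n (βv n) none) j
      (Fock.map _ (isEv_res (ac.bc F) (chi w c)) (bcS _ (isEvS_jV p F) x))
  lam : (Fin (r + 1) → R → ℤ) → F
  lam_o : lam 0 = 1
  loc2 : ∀ β j x, ∀ᶠ N in Filter.atTop, ZZ 0 β 0 j x = lam β * ∑ᶠ (jv) (_ : ∑ i, jv i = j),
    (∏ i, (∏ l ∈ univ.erase i, (w l - w i) • tt) ^ jv i) *
      ZF β jv (Fock.map _ (isEv_exN (ac.bc F) (chi w c) N) x)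
  loc2' : ∀ β e j, e ≠ 0 → ZZ 0 β e j = 0
  loc3 : ∀ (m : ℕ) β e j x, (2 * ((m : F) + 1)) * ZZ (m + 1) β e j x = ∑ᶠ E : Edge (Fin (r + 1)),
    (ZZ m β (e - (E.deg + 1)) j (X0 (ac.bc F) (chi w c) E x) +
      ZZ m β (e - (E.deg + 1)) (j + 1) (Xm (ac.bc F) (chi w c) E x) +
      ZZ m β (e - (E.deg + 1)) (j - 1) (X1 (ac.bc F) (chi w c) E x))

end out

namespace St

/-- **Quantum Riemann-Roch** for an absolute target; `φ (c l - c n)` is the first Chern class of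
the line bundle of the field `y l`. -/
def Qrr : Prop :=
  ∀ {Λ R J K : Type} [Fintype Λ] [Fintype R] [Fintype J] [Fintype K] [DecidableEq R]
    (V : Fam Empty Λ R J K) (l₀) (k : ℕ) (C : Deg.Coh) (i : C.H →ₗ[ℂ] H (V.X V.cone)) {A : Type}
    [CommRing A] [Algebra ℂ A] (ac : B.Act C.fr A) (φ : A →ₐ[ℂ] H (V.X V.cone)) {r : ℕ}
    (w : Fin (r + 1) → ℂ) (c : Fin (r + 1) → A) (n : Fin (r + 1)) (y : Fin (r + 1) → J),
    V.Nice 0 → V.Abs → V.B = {l₀} → V.Big k → V.IsCoh C i → Injective w →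
    (∀ x v, i (ac.act x v) = φ x * i v) → (∀ l ≠ n, φ (c l - c n) = V.lc _ 0 (V.w (y l))) →
    ∃ κ : ℕ → ℂ, κ 0 = 0 ∧
      ∀ β, QrrEq ac w c n κ fun m => V.ser0 k (V.exT (thV y w n m)) C.p i β

/-- **Localisation** on a projective bundle. -/
def Loc : Prop :=
  ∀ {R J K : Type} [Fintype R] [Fintype J] [Fintype K] [DecidableEq R] (F : Fam Empty Empty R J K)
    {r : ℕ} (a : Fin (r + 1) → R → ℤ) (θ) (k : ℕ) (C : Deg.Coh) (i : C.H →ₗ[ℂ] H (F.X F.cone))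
    (i₀ : C.H →ₗ[ℂ] H ((F.proj a θ).X (F.proj a θ).cone))
    (iP : (Fin (r + 1) → C.H) →ₗ[ℂ] H ((F.proj a θ).X (F.proj a θ).cone))
    (ac : B.Act C.fr (Ch.Hev (F.X F.cone))) (c : Fin (r + 1) → Ch.Hev (F.X F.cone))
    (w : Fin (r + 1) → ℂ) (ZF : (Fin (r + 1) → R → ℤ) → (Fin (r + 1) → ℤ) →
      Fock.S (((C.p.bc B.F).pi (Fin (r + 1))).fs ℕ) →ₗ[B.F] B.F),
    F.Tg → 0 < r → (F.proj a θ).Good → (F.proj a θ).Big k → F.IsCoh C i →
    (∀ v, i₀ v = (F.proj a θ).pb F.toWt (fun z => (z.1, z.2 ∘ .inl)) _ (i v)) →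
    (∀ v, iP v = ∑ l : Fin (r + 1),
      (F.proj a θ).lc _ 0 (Pi.single none 1) ^ (l : ℕ) * i₀ (v l)) →
    IsEv C.p (parH _) i₀ → IsEv (C.p.pi _) (parH _) iP →
    (∀ x v, i (ac.act x v) = x.1 * i v) → (∀ l, (c l).1 = F.lc _ 0 (a l)) →
    (∀ l, IsNilpotent (c l)) → LinearIndependent ℚ w →
    (∀ β jv x, ZF β jv (bcS _ (B.isEvS_jV C.p B.F) (prd C.p x)) = ∏ n, Hat.ofPS ℂ
      (PowerSeries.mk fun m => ((F.proj a θ).vx n).ser0 k
        ((F.proj a θ).exT (thV .inr w n m)) C.p i₀ (dgV a n (β n)) (jv n) (x n))) →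
    Nonempty (LocOut ac w c a ((F.proj a θ).ser0 k (F.proj a θ).ex0 (C.p.pi _) iP) ZF)

/-- The genus of a stable map is bounded below. -/
def Low : Prop :=
  ∀ {Λ R J ν κ : Type} [Fintype R] [Fintype ν] [Fintype κ] (m : AM Λ R J ν κ) (θ : R → ℤ) (g : ℤ)
    (d : R → ℤ), m.Stable θ → m.Typ g d →
    0 ≤ 3 * (g - 1) + Fintype.card (Ch.Mk ν κ) + ∑ s, θ s * d s

end St

end Vale.Agent.P269
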