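import Vale.Agent.P269.PA.Prd
import Mathlib.RingTheory.PowerSeries.Derivative

/-!
# The input of step (B) from the invariants of the single copies
-/

namespace Vale.Agent.P269

open Function Fock Finset

variable {H : Type} [AddCommGroup H] [Module ℂ H] {p : Par ℂ H} {ι : Type} [Fintype ι]
  {fr : Frame p ι} {A : Type} [CommRing A] [Algebra ℂ A] {r : ℕ}

namespace MulP

lemma quad_cz (ac : B.Act fr A) (x : A) {n : ℤ} (hn : Odd n) :
    fr.Quad (zp ℂ H n * cst (ac.act x)) := by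
  refine Frame.Quad.of_up ((isEv_zp p n).mul (ac.ev x).cst) (fun y y' => ?_)
    ((up_zp n).mul (up_cst _))
  rw [(Frame.adj_zp n).mul (Frame.adj_cst (ac.adj x)) y y', sg, Int.negOnePow_odd n hn,
    mul_smul_comm, (cst_zp _ _).eq]
  simp

/-- The generating series of a family of functionals. -/
noncomputable def gen {V : Type} [AddCommGroup V] [Module ℂ V] (Z : ℕ → V →ₗ[ℂ] ℂ) :
    V →ₗ[ℂ] PowerSeries ℂ where
  toFun x := PowerSeries.mk fun m => Z m x
  map_add' x y := by ext; simp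
  map_smul' a x := by ext; simp

/-- Power series as Laurent series, as a linear map. -/
noncomputable def ofL : PowerSeries ℂ →ₗ[ℂ] B.F where
  toFun := Hat.ofPS ℂ
  map_add' := map_add _
  map_smul' a f := Hat.ext_nat (Hat.ofPS_Lo _)
    (fun n hn => by rw [Hat.co_smul, Hat.ofPS_Lo f n hn, smul_zero]) fun m => by simp

lemma coeff_eu (f : PowerSeries ℂ) (m : ℕ) :
    PowerSeries.coeff m (PowerSeries.X * PowerSeries.derivative ℂ f) =
      m * PowerSeries.coeff m f := by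
  cases m with
  | zero => simp
  | succ m => rw [PowerSeries.coeff_succ_X_mul, PowerSeries.coeff_derivative, mul_comm]; simp

lemma coeff_tri (T : ℕ → ℕ → ℂ) (R : PowerSeries ℂ) (m : ℕ) :
    PowerSeries.coeff m ((PowerSeries.mk fun a => ∑ q ∈ antidiagonal a, T q.1 q.2) * R) =
      ∑ q ∈ antidiagonal m, PowerSeries.coeff q.1 ((PowerSeries.mk fun a => T a q.2) * R) := by
  simp only [PowerSeries.coeff_mul, PowerSeries.coeff_mk, sum_mul, sum_sigma']
  refine sum_nbij' (fun z => ⟨(z.2.1 + z.1.2, z.2.2), (z.2.1, z.1.2)⟩)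
    (fun z => ⟨(z.2.1 + z.1.2, z.2.2), (z.2.1, z.1.2)⟩) ?_ ?_ ?_ ?_ fun _ _ => rfl
  all_goals
    rintro ⟨⟨a, b⟩, ⟨s, t⟩⟩ hz
    simp only [mem_sigma, HasAntidiagonal.mem_antidiagonal] at hz ⊢
    obtain ⟨rfl, rfl⟩ := hz
  · exact ⟨by ring, trivial⟩
  · exact ⟨by ring, trivial⟩
  · rfl
  · rfl

lemma der_prod {σ : Type} [DecidableEq σ] (s : Finset σ) (G : σ → PowerSeries ℂ) :
    PowerSeries.derivative ℂ (∏ i ∈ s, G i) =
      ∑ i ∈ s, PowerSeries.derivative ℂ (G i) * ∏ l ∈ s.erase i, G l := by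
  induction s using Finset.induction_on with
  | empty => simp
  | insert a s ha ih =>
    rw [prod_insert ha, sum_insert ha, Derivation.leibniz, ih, erase_insert ha, smul_eq_mul,
      smul_eq_mul, mul_sum, add_comm, mul_comm]
    refine congrArg _ (sum_congr rfl fun i hi => ?_)
    rw [erase_insert_of_ne (ne_of_mem_of_not_mem hi ha).symm, prod_insert fun e => ha (mem_of_mem_erase e),
      mul_left_comm]

/-- The Euler operator on a product of series. -/
lemma eu_prod {σ : Type} [Fintype σ] [DecidableEq σ] (G : σ → PowerSeries ℂ)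
    (T : σ → ℕ → ℕ → ℂ)
    (h : ∀ i (m : ℕ), m * PowerSeries.coeff m (G i) = ∑ q ∈ antidiagonal m, T i q.1 q.2) (m : ℕ) :
    m * PowerSeries.coeff m (∏ i, G i) = ∑ q ∈ antidiagonal m, ∑ i,
      PowerSeries.coeff q.1 ((PowerSeries.mk fun a => T i a q.2) * ∏ l ∈ univ.erase i, G l) := by
  rw [← coeff_eu, der_prod, mul_sum, map_sum, sum_comm]
  refine sum_congr rfl fun i _ => ?_
  rw [← coeff_tri, ← mul_assoc]
  congr 2
  ext a
  rw [coeff_eu, h, PowerSeries.coeff_mk]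

lemma q0_sum {σ : Type} [Fintype σ] (T : σ → Module.End ℂ (LL H)) (x : S (p.fs ℕ)) :
    fr.q0 (∑ i, T i) x = ∑ i, fr.q0 (T i) x := by
  have e : Frame.blk (∑ i, T i) = ∑ i, Frame.blk (T i) :=
    LinearMap.ext fun v => by simp [Frame.blk, LinearMap.sum_apply]
  simp only [Frame.q0_eq, e, map_sum, LinearMap.sum_apply]

lemma prd_sub (x : Fin r → S (p.fs ℕ)) (n : Fin r) (a : ℂ) (y : S (p.fs ℕ)) :
    prd p (update x n (a • x n - y)) = a • prd p x - prd p (update x n y) := by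
  rw [eq_sub_iff_add_eq, ← prd_add, sub_add_cancel, prd_smul, update_eq_self]

end MulP

theorem isEv_aK (ac : B.Act fr A) (w : Fin (r + 1) → ℂ) (c : Fin (r + 1) → A) (T : ℕ → Prop)
    [DecidablePred T] (n : Fin (r + 1)) (k : ℕ) :
    IsEv (p.fs ℤ) (p.fs ℤ) (B.aK ac w c T n k) := by
  unfold B.aK
  split_ifs
  · exact IsEv.zero
  · exact IsEv.sum _ fun l _ => IsEv.sum _ fun q _ => ((isEv_zp p _).mul (ac.ev _).cst).smul _

theorem quad_aT (ac : B.Act fr A) (w : Fin (r + 1) → ℂ) (c : Fin (r + 1) → A) (u : PowerSeries A)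
    (n : Fin (r + 1)) (k : ℕ) : fr.Quad (B.aT ac w c u n k) := by
  refine Frame.Quad.sum _ fun q _ => ?_
  unfold B.aK
  split_ifs
  · rw [mul_zero]; exact Frame.Quad.zero
  rw [mul_sum]
  refine Frame.Quad.sum _ fun l _ => ?_
  rw [mul_sum]
  refine Frame.Quad.sum _ fun s hs => ?_
  rcases s.1.even_or_odd with h | h
  · rw [mul_smul_comm, ← mul_assoc, (cst_zp _ _).eq, mul_assoc, ← map_mul, ← map_mul]
    exact (MulP.quad_cz ac _ (h.natCast.sub_odd odd_one)).smul _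
  · have h1 : s.1 ≠ 1 := (mem_filter.1 hs).2
    rw [bernoulli_eq_zero_of_odd h (by obtain ⟨t, ht⟩ := h; omega)]
    simpa using Frame.Quad.zero

/-- The product of the twisted invariants of the copies and its base change. -/
theorem exists_ZB (Z : Fin r → ℕ → S (p.fs ℕ) →ₗ[ℂ] ℂ) (hZ : ∀ n m x, Z n m (par _ x) = Z n m x) :
    ∃ (ZB : ℕ → S ((p.pi (Fin r)).fs ℕ) →ₗ[ℂ] ℂ) (ZF : S (((p.bc B.F).pi (Fin r)).fs ℕ) →ₗ[B.F] B.F),
      (∀ x, (PowerSeries.mk fun m => ZB m (prd p x)) = ∏ n, PowerSeries.mk fun m => Z n m (x n)) ∧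
      ∀ x, ZF (bcS _ (B.isEvS_jV p B.F) x) = Hat.ofPS ℂ (PowerSeries.mk fun m => ZB m x) := by
  obtain ⟨P, hP⟩ := exists_prodF (fun n => MulP.gen (Z n)) fun n x =>
    congrArg PowerSeries.mk (funext fun m => hZ n m x)
  obtain ⟨ZF, hF⟩ := exists_ext (((TensorProduct.isBaseChange ℂ H B.F).finitePow
    (Fin r)).finsuppPow ℕ) (B.isEvS_jV p B.F) (MulP.ofL ∘ₗ P)
  have e : ∀ x, (PowerSeries.mk fun m => (PowerSeries.coeff m ∘ₗ P) x) = P x := fun x => by
    ext; simp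
  exact ⟨fun m => PowerSeries.coeff m ∘ₗ P, ZF, fun x => (e _).trans (hP x),
    fun x => (hF x).trans (congrArg (Hat.ofPS ℂ) (e x).symm)⟩

/-- The twisted invariants `Z n β m j` of the copy `n`. -/
structure Cop (d : VD fr) (ac : B.Act fr A) (w : Fin (r + 1) → ℂ) (c : Fin (r + 1) → A) {Γ : Type}
    (o : Γ) (Z : Fin (r + 1) → Γ → ℕ → ℤ → S (p.fs ℕ) →ₗ[ℂ] ℂ) : Prop where
  ev : ∀ n β m j x, Z n β m j (par _ x) = Z n β m j x
  vir : ∀ n β, d.VirC (Z n β 0)
  qrr : ∀ n, ∃ κ : ℕ → ℂ, κ 0 = 0 ∧ ∀ β, QrrEq ac w c n κ (Z n β)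
  low : ∀ n β x, ∃ J : ℤ, ∀ m j, Z n β m j x ≠ 0 → J ≤ j
  neg : ∀ n m j, Z n o m j 1 ≠ 0 → 0 ≤ j
  zero : ∀ n m, Z n o m 0 1 = if m = 0 then 1 else 0

namespace MulP

variable {Z : Fin (r + 1) → ℕ → ℤ → S (p.fs ℕ) →ₗ[ℂ] ℂ}
  {ZB : (Fin (r + 1) → ℤ) → ℕ → S ((p.pi (Fin (r + 1))).fs ℕ) →ₗ[ℂ] ℂ}
  (h1 : ∀ jv x, (PowerSeries.mk fun m => ZB jv m (prd p x)) =
    ∏ n, PowerSeries.mk fun m => Z n m (jv n) (x n))
include h1

lemma upd (jv : Fin (r + 1) → ℤ) (x : Fin (r + 1) → S (p.fs ℕ)) (i : Fin (r + 1)) (j : ℤ)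
    (y : S (p.fs ℕ)) (m : ℕ) : ZB (jv + Pi.single i j) m (prd p (update x i y)) =
      PowerSeries.coeff m ((PowerSeries.mk fun a => Z i a (jv i + j) y) *
        ∏ l ∈ univ.erase i, PowerSeries.mk fun a => Z l a (jv l) (x l)) := by
  have := congrArg (PowerSeries.coeff m) (h1 (jv + Pi.single i j) (update x i y))
  rw [PowerSeries.coeff_mk, ← mul_prod_erase _ _ (mem_univ i)] at this
  rw [this, update_self, Pi.add_apply, Pi.single_eq_same]
  congr 2
  refine prod_congr rfl fun l hl => ?_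
  rw [update_of_ne (ne_of_mem_erase hl), Pi.add_apply, Pi.single_eq_of_ne (ne_of_mem_erase hl),
    add_zero]

lemma upd0 (jv : Fin (r + 1) → ℤ) (x : Fin (r + 1) → S (p.fs ℕ)) (i : Fin (r + 1))
    (y : S (p.fs ℕ)) (m : ℕ) : ZB jv m (prd p (update x i y)) =
      PowerSeries.coeff m ((PowerSeries.mk fun a => Z i a (jv i) y) *
        ∏ l ∈ univ.erase i, PowerSeries.mk fun a => Z l a (jv l) (x l)) := by
  simpa using upd h1 jv x i 0 y m

lemma updm (jv : Fin (r + 1) → ℤ) (x : Fin (r + 1) → S (p.fs ℕ)) (i : Fin (r + 1))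
    (y : S (p.fs ℕ)) (m : ℕ) : ZB (jv - Pi.single i 1) m (prd p (update x i y)) =
      PowerSeries.coeff m ((PowerSeries.mk fun a => Z i a (jv i - 1) y) *
        ∏ l ∈ univ.erase i, PowerSeries.mk fun a => Z l a (jv l) (x l)) := by
  rw [sub_eq_add_neg, ← Pi.single_neg, upd h1, ← sub_eq_add_neg]

lemma ne_zero {jv : Fin (r + 1) → ℤ} {x : Fin (r + 1) → S (p.fs ℕ)} {m : ℕ}
    (h : ZB jv m (prd p x) ≠ 0) (i : Fin (r + 1)) : ∃ a, Z i a (jv i) (x i) ≠ 0 := by
  by_contra! hc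
  refine h ?_
  rw [← update_eq_self i x, upd0 h1, show (PowerSeries.mk fun a => Z i a (jv i) (x i)) = 0 from
    PowerSeries.ext fun a => by simp [hc], zero_mul, map_zero]

lemma vir {d : VD fr} (h : ∀ n, d.VirC (Z n 0)) (i : Fin (r + 1)) (k : ℕ) (jv : Fin (r + 1) → ℤ)
    (x : S ((p.pi (Fin (r + 1))).fs ℕ)) :
    ZB jv 0 ((fr.pi _).q0 (B.cmp i (d.ell k)) x + (if k = 1 then d.c0 else 0) • x) +
      ZB (jv + Pi.single i 1) 0 ((fr.pi _).qm (B.cmp i (d.ell k)) x) +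
      ZB (jv - Pi.single i 1) 0 ((fr.pi _).q1 (B.cmp i (d.ell k)) x) = 0 := by
  induction x using prd_ind with
  | h x =>
    have e : (if k = 1 then d.c0 else 0) • prd p x =
        prd p (update x i ((if k = 1 then d.c0 else 0) • x i)) := by rw [prd_smul, update_eq_self]
    rw [q0_prd (d.quad_ell k).ev, qm_prd (d.quad_ell k), q1_prd (d.quad_ell k), e, ← prd_add,
      upd0 h1, upd h1, updm h1]
    simp only [PowerSeries.coeff_mul, Nat.antidiagonal_zero, sum_singleton, PowerSeries.coeff_mk]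
    rw [← add_mul, ← add_mul, h i k, zero_mul]
  | hadd x y hx hy =>
    simp only [map_add, smul_add] at hx hy ⊢
    linear_combination hx + hy
  | hsmul a x hx =>
    simp only [map_add, map_smul, smul_comm _ a, smul_eq_mul] at hx ⊢
    linear_combination a * hx

lemma qrr {ac : B.Act fr A} {w : Fin (r + 1) → ℂ} {c : Fin (r + 1) → A} {κ : Fin (r + 1) → ℕ → ℂ}
    (h : ∀ n, QrrEq ac w c n (κ n) (Z n)) (jv : Fin (r + 1) → ℤ) (m : ℕ)
    (x : S ((p.pi (Fin (r + 1))).fs ℕ)) : m * ZB jv m x = ∑ q ∈ antidiagonal m,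
      (ZB jv q.1 ((∑ n, κ n q.2) • x -
          (fr.pi _).q0 (∑ i, B.cmp i (B.aK ac w c (fun _ => True) i q.2)) x) -
        ∑ i, ZB (jv - Pi.single i 1) q.1
          ((fr.pi _).q1 (B.cmp i (B.aT ac w c (B.cI w c i) i q.2)) x) -
        ∑ i, ZB (jv + Pi.single i 1) q.1
          ((fr.pi _).qm (B.cmp i (B.aT ac w c (Ring.inverse (B.cI w c i)) i q.2)) x)) := by
  induction x using prd_ind with
  | h x =>
    have e := congrArg (PowerSeries.coeff m) (h1 jv x)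
    rw [PowerSeries.coeff_mk] at e
    rw [e, eu_prod _ (fun i a b => Z i a (jv i) (κ i b • x i -
        fr.q0 (B.aK ac w c (fun _ => True) i b) (x i)) -
      Z i a (jv i - 1) (fr.q1 (B.aT ac w c (B.cI w c i) i b) (x i)) -
      Z i a (jv i + 1) (fr.qm (B.aT ac w c (Ring.inverse (B.cI w c i)) i b) (x i)))
      fun i m => by rw [PowerSeries.coeff_mk]; exact h i m (jv i) (x i)]
    refine sum_congr rfl fun q _ => ?_
    rw [q0_sum, sum_smul, ← sum_sub_distrib, map_sum, ← sum_sub_distrib, ← sum_sub_distrib]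
    refine sum_congr rfl fun i _ => ?_
    rw [q0_prd (isEv_aK ac w c _ i _), q1_prd (quad_aT ac w c _ i _),
      qm_prd (quad_aT ac w c _ i _), ← prd_sub, upd0 h1, upd h1, updm h1, ← map_sub, ← map_sub,
      ← sub_mul, ← sub_mul]
    refine congrArg (fun f => PowerSeries.coeff q.1 (f * _)) (PowerSeries.ext fun a => ?_)
    simp only [PowerSeries.coeff_mk, map_sub]
  | hadd x y hx hy =>
    rw [map_add, mul_add, hx, hy, ← sum_add_distrib]
    refine sum_congr rfl fun q _ => ?_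
    simp only [map_add, map_sub, smul_add, sum_add_distrib]
    ring
  | hsmul a x hx =>
    rw [map_smul, smul_eq_mul, mul_left_comm, hx, mul_sum]
    refine sum_congr rfl fun q _ => ?_
    simp only [map_smul, map_sub, smul_eq_mul, mul_sub, mul_sum, mul_left_comm a]

lemma low (h : ∀ n x, ∃ J : ℤ, ∀ m j, Z n m j x ≠ 0 → J ≤ j) (x : S ((p.pi (Fin (r + 1))).fs ℕ)) :
    ∃ J : ℤ, ∀ m jv, ZB jv m x ≠ 0 → ∀ i, J ≤ jv i := by
  induction x using prd_ind with
  | h x =>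
    choose J hJ using h
    obtain ⟨J0, h0⟩ := Finite.exists_ge fun n => J n (x n)
    refine ⟨J0, fun m jv hz i => ?_⟩
    obtain ⟨a, ha⟩ := ne_zero h1 hz i
    exact (h0 i).trans (hJ i _ a _ ha)
  | hadd x y hx hy =>
    obtain ⟨J, hJ⟩ := hx
    obtain ⟨J', hJ'⟩ := hy
    refine ⟨min J J', fun m jv hz i => ?_⟩
    by_cases h0 : ZB jv m x = 0
    · exact (min_le_right _ _).trans (hJ' m jv (by rwa [map_add, h0, zero_add] at hz) i)
    · exact (min_le_left _ _).trans (hJ m jv h0 i)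
  | hsmul a x hx =>
    exact hx.imp fun J hJ m jv hz => hJ m jv fun h0 => hz (by rw [map_smul, h0, smul_zero])

lemma zero (h : ∀ n m, Z n m 0 1 = if m = 0 then 1 else 0) (m : ℕ) :
    ZB 0 m 1 = if m = 0 then 1 else 0 := by
  have e := congrArg (PowerSeries.coeff m) (h1 0 fun _ => 1)
  rw [PowerSeries.coeff_mk, prd_one, prod_eq_one fun n _ => PowerSeries.ext fun a => by
    rw [PowerSeries.coeff_mk, PowerSeries.coeff_one]; exact h n a, PowerSeries.coeff_one] at e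
  exact e

end MulP

/-- **The assembly of the input of step (B).** -/
theorem Cop.bIn {d : VD fr} {ac : B.Act fr A} {w : Fin (r + 1) → ℂ} {c : Fin (r + 1) → A}
    {R : Type} [Fintype R] {Z : Fin (r + 1) → (R → ℤ) → ℕ → ℤ → S (p.fs ℕ) →ₗ[ℂ] ℂ}
    (h : Cop d ac w c 0 Z) (hr : 0 < r) (nil : ∀ l, IsNilpotent (c l))
    (μ_c : ∀ l, d.μ * ac.act (c l) = ac.act (c l) * d.μ + ac.act (c l))
    (ρ_c : ∀ l, d.ρ * ac.act (c l) = ac.act (c l) * d.ρ) (hw : LinearIndependent ℚ w)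
    {a : Fin (r + 1) → R → ℤ} {Z0 : (Option R → ℤ) → ℤ → S ((p.pi (Fin (r + 1))).fs ℕ) →ₗ[ℂ] ℂ}
    (loc : ∀ ZF : (Fin (r + 1) → R → ℤ) → (Fin (r + 1) → ℤ) →
        S (((p.bc B.F).pi (Fin (r + 1))).fs ℕ) →ₗ[B.F] B.F,
      (∀ β jv x, ZF β jv (bcS _ (B.isEvS_jV p B.F) (prd p x)) =
        ∏ n, Hat.ofPS ℂ (PowerSeries.mk fun m => Z n (β n) m (jv n) (x n))) →
      Nonempty (LocOut ac w c a Z0 ZF)) :
    ∃ ZT, Nonempty (B.BIn d ac c (R → ℤ) ZT) ∧
      ∀ β e j x, (ZT β e j x).coeff 0 = Z0 (fun o => o.elim e β) j x := by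
  choose ZB ZF h1 h2 using fun (β : Fin (r + 1) → R → ℤ) (jv : Fin (r + 1) → ℤ) =>
    exists_ZB (fun n m => Z n (β n) m (jv n)) fun n m x => h.ev n _ m _ x
  obtain ⟨L⟩ := loc ZF fun β jv x => by rw [h2, h1, map_prod]
  choose κ hκ hq using h.qrr
  exact ⟨L.ZT, ⟨{
    hr := hr
    nil := nil
    μ_c := μ_c
    ρ_c := ρ_c
    a := w
    ha := hw
    Γv := Fin (r + 1) → R → ℤ
    tup := L.tup
    sh := fun β => ∑ n, dgV a n (β n) none
    o := 0
    ov := 0
    tup_o := L.tup_o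
    sh_o := by simp [dgV]
    ZB := ZB
    vir := fun i k β => MulP.vir (Z := fun n => Z n (β n)) (h1 β) (fun n => h.vir n _) i k
    κ := fun m => ∑ n, κ n m
    κ_zero := sum_eq_zero fun n _ => hκ n
    qrr := fun β => MulP.qrr (Z := fun n => Z n (β n)) (h1 β) fun n => hq n _
    low := fun β => MulP.low (Z := fun n => Z n (β n)) (h1 β) fun n => h.low n _
    norm_neg := fun jv m hz i => by
      obtain ⟨s, hs⟩ := MulP.ne_zero (Z := fun n => Z n 0) (h1 0) (prd_one (p := p) ▸ hz) i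
      exact h.neg i s _ hs
    norm_zero := MulP.zero (Z := fun n => Z n 0) (h1 0) h.zero
    ZF := ZF
    ZF_bc := h2
    ZZ := L.ZZ
    loc1 := L.loc1
    lam := L.lam
    lam_o := L.lam_o
    loc2 := L.loc2
    loc2' := L.loc2'
    loc3 := L.loc3 }⟩, L.cst⟩

end Vale.Agent.P269
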